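import Mathlib.Tactic

/-!
P015, block (I), step END (helper886 #3202/#3254): two short vectors of two coprime
sublattices `Λ_M = {v : M ∣ v.1 + R * v.2}`, `M ∣ R ^ 2 + 1`, with zero cross product.
-/

namespace Vale.Agent.P015.H716

/-- `M ∣ lf R v`, in the form used everywhere. -/
theorem dot_eq_cross_left {R M : ℤ} (hM : M ∣ R ^ 2 + 1) {v w : ℤ × ℤ}
    (hv : M ∣ v.1 + R * v.2) :
    M ∣ (v.1 * w.1 + v.2 * w.2) - R * (v.1 * w.2 - v.2 * w.1) := by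
  obtain ⟨k, hk⟩ := hM
  obtain ⟨l, hl⟩ := hv
  have h1 : v.1 = M * l - R * v.2 := by linarith
  refine ⟨l * w.1 - R * l * w.2 + k * v.2 * w.2, ?_⟩
  rw [h1]
  have : M * (l * w.1 - R * l * w.2 + k * v.2 * w.2)
      = M * l * w.1 - R * (M * l) * w.2 + (M * k) * (v.2 * w.2) := by ring
  rw [this, ← hk]
  ring

/-- symmetric form for the second vector -/
theorem dot_eq_cross_right {R M : ℤ} (hM : M ∣ R ^ 2 + 1) {v w : ℤ × ℤ}
    (hw : M ∣ w.1 + R * w.2) :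
    M ∣ (v.1 * w.1 + v.2 * w.2) + R * (v.1 * w.2 - v.2 * w.1) := by
  have h := dot_eq_cross_left hM (v := w) (w := v) hw
  have e : (v.1 * w.1 + v.2 * w.2) + R * (v.1 * w.2 - v.2 * w.1)
      = (w.1 * v.1 + w.2 * v.2) - R * (w.1 * v.2 - w.2 * v.1) := by ring
  rw [e]; exact h

/-- two vectors of the same lattice: `M` divides the cross product. -/
theorem dvd_cross {R M : ℤ} {v w : ℤ × ℤ}
    (hv : M ∣ v.1 + R * v.2) (hw : M ∣ w.1 + R * w.2) :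
    M ∣ v.1 * w.2 - v.2 * w.1 := by
  obtain ⟨k, hk⟩ := hv
  obtain ⟨l, hl⟩ := hw
  refine ⟨k * w.2 - l * v.2, ?_⟩
  have h1 : v.1 = M * k - R * v.2 := by linarith
  have h2 : w.1 = M * l - R * w.2 := by linarith
  rw [h1, h2]; ring

/-- `M` divides the square norm of a vector of the lattice. -/
theorem dvd_sq {R M : ℤ} (hM : M ∣ R ^ 2 + 1) {v : ℤ × ℤ} (hv : M ∣ v.1 + R * v.2) :
    M ∣ v.1 ^ 2 + v.2 ^ 2 := by
  have h := dot_eq_cross_left hM (v := v) (w := v) hv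
  have e : (v.1 * v.1 + v.2 * v.2) - R * (v.1 * v.2 - v.2 * v.1) = v.1 ^ 2 + v.2 ^ 2 := by ring
  rwa [e] at h

/-- a nonzero integer vector has positive square norm -/
theorem sq_pos_of_ne {u : ℤ × ℤ} (hu : u ≠ 0) : 0 < u.1 ^ 2 + u.2 ^ 2 := by
  rcases u with ⟨a, b⟩
  have : a ≠ 0 ∨ b ≠ 0 := by
    by_contra hh
    push Not at hh
    exact hu (by simp [hh.1, hh.2])
  rcases this with h | h
  · have h1 : 0 < a ^ 2 := by positivity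
    show 0 < a ^ 2 + b ^ 2
    nlinarith [sq_nonneg b]
  · have h1 : 0 < b ^ 2 := by positivity
    show 0 < a ^ 2 + b ^ 2
    nlinarith [sq_nonneg a]

/-- a nonzero vector of the lattice has square norm at least `M`. -/
theorem le_sq {R M : ℤ} (hM : M ∣ R ^ 2 + 1) {v : ℤ × ℤ} (hv : M ∣ v.1 + R * v.2)
    (h0 : v ≠ 0) : M ≤ v.1 ^ 2 + v.2 ^ 2 :=
  Int.le_of_dvd (sq_pos_of_ne h0) (dvd_sq hM hv)

/-- END: parallel nonzero vectors of two coprime lattices are long. -/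
theorem end_dot {R M₁ M₂ : ℤ} (h1 : M₁ ∣ R ^ 2 + 1) (h2 : M₂ ∣ R ^ 2 + 1)
    (hc : IsCoprime M₁ M₂) {v w : ℤ × ℤ}
    (hv : M₁ ∣ v.1 + R * v.2) (hw : M₂ ∣ w.1 + R * w.2)
    (hcr : v.1 * w.2 - v.2 * w.1 = 0) (v0 : v ≠ 0) (w0 : w ≠ 0) :
    M₁ * M₂ ≤ |v.1 * w.1 + v.2 * w.2| ∧
      (v.1 * w.1 + v.2 * w.2) ^ 2 = (v.1 ^ 2 + v.2 ^ 2) * (w.1 ^ 2 + w.2 ^ 2) := by
  have key : (v.1 * w.1 + v.2 * w.2) ^ 2 = (v.1 ^ 2 + v.2 ^ 2) * (w.1 ^ 2 + w.2 ^ 2) := by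
    have : (v.1 * w.1 + v.2 * w.2) ^ 2 + (v.1 * w.2 - v.2 * w.1) ^ 2
        = (v.1 ^ 2 + v.2 ^ 2) * (w.1 ^ 2 + w.2 ^ 2) := by ring
    rw [hcr] at this
    linarith
  refine ⟨?_, key⟩
  have d1 := dot_eq_cross_left h1 (w := w) hv
  have d2 := dot_eq_cross_right h2 (v := v) hw
  rw [hcr, mul_zero, sub_zero] at d1
  rw [hcr, mul_zero, add_zero] at d2
  have hd : M₁ * M₂ ∣ v.1 * w.1 + v.2 * w.2 := hc.mul_dvd d1 d2
  have hne : v.1 * w.1 + v.2 * w.2 ≠ 0 := by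
    intro h
    rw [h] at key
    have := mul_pos (sq_pos_of_ne v0) (sq_pos_of_ne w0)
    nlinarith
  exact Int.le_of_dvd (abs_pos.mpr hne) ((dvd_abs _ _).mpr hd)

end Vale.Agent.P015.H716
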